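import Vale.Agent.P105.Main
import Vale.Agent.P105.Param
import Vale.Agent.P105.Cert.Init
import Vale.Agent.P105.Final

/-! A singular Bernoulli convolution whose parameter is not the inverse of a Pisot number. -/

namespace Vale.Agent.Results.P105.SingularNonPisot

open MeasureTheory Vale.Agent.P105

theorem result : ∃ lam : ℝ, 1 / 2 < lam ∧ lam < 1 ∧ ¬ IsPisot lam⁻¹ ∧
    IsProbabilityMeasure (bernoulliConv lam) ∧ bernoulliConv lam ⟂ₘ volume :=
  disproof init final paramStmt

end Vale.Agent.Results.P105.SingularNonPisot
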